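import Vale.Agent.P317.MathlibUsed

/-!
Algorithms with two independence oracles, as functions which choose the next action.
-/

namespace Vale.Agent.P317.TM

/-- What an algorithm sees when it chooses its next action: the number `n` of elements, the
numbers `e` and `l` describing the required accuracy, its random bits, and all answers of the
oracles so far. -/
structure Input where
  n : ℕ
  e : ℕ
  l : ℕ
  coins : List Bool
  answers : List Bool

/-- The next action: to ask oracle `i` about the set with characteristic word `S`, or to stop
with output `N`. -/
inductive Action : Type
  | ask (i : Bool) (S : List Bool)
  | output (N : ℕ)

/-- A pair of words as one word: every bit of the first word is preceded by `true`, then comes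
`false`, then the second word. -/
def pair : List Bool → List Bool → List Bool
  | [], y => false :: y
  | b :: x, y => true :: b :: pair x y

/-- The code of an input; `n`, `e`, `l` are written in unary. -/
def Input.code (x : Input) : List Bool :=
  pair (List.replicate x.n true) (pair (List.replicate x.e true)
    (pair (List.replicate x.l true) (pair x.coins x.answers)))

/-- The code of an action; outputs are written in binary, least significant bit first. -/
def Action.code : Action → List Bool
  | .ask i S => true :: i :: S
  | .output N => false :: N.bits

open Classical in
/-- The answer of the independence oracle of `M` to the question about the set with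
characteristic word `S`. -/
noncomputable def oracle {n : ℕ} (M : Matroid (Fin n)) (S : List Bool) : Bool :=
  decide (M.Indep {x : Fin n | S.getD x false = true})

/-- All answers which the algorithm `A` with oracles for `M₁` and `M₂` has received after its
first `k` questions (fewer, if it stops before). -/
noncomputable def answers (A : Input → Action) {n : ℕ} (M₁ M₂ : Matroid (Fin n)) (e l : ℕ)
    (coins : List Bool) : ℕ → List Bool
  | 0 => []
  | k + 1 => match A ⟨n, e, l, coins, answers A M₁ M₂ e l coins k⟩ with
    | .ask i S => answers A M₁ M₂ e l coins k ++ [oracle (if i then M₂ else M₁) S]
    | .output _ => answers A M₁ M₂ e l coins k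

/-- The algorithm `A`, with oracles for `M₁` and `M₂`, parameters `e` and `l` and these random
bits, stops after at most `T` questions and its output is `N`. -/
def Outputs (A : Input → Action) {n : ℕ} (M₁ M₂ : Matroid (Fin n)) (e l : ℕ) (coins : List Bool)
    (T N : ℕ) : Prop :=
  A ⟨n, e, l, coins, answers A M₁ M₂ e l coins T⟩ = .output N

end Vale.Agent.P317.TM
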